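import Vale.Agent.P031.Interfaces
import Vale.Agent.P013.Mertens

/-!
Each level carries mass one.
-/

open Finset Real
open ArithmeticFunction hiding log

namespace Vale.Agent.P031.Mertens

/-- `log p / p` on primes, zero elsewhere. -/
noncomputable def wt (n : ℕ) : ℝ := if n.Prime then log n / n else 0

/-- The sum in Mertens' first theorem, over primes. -/
noncomputable def pSum (n : ℕ) : ℝ := ∑ d ∈ Icc 1 n, wt d

theorem pSum_bounds : ∃ D : ℝ, ∀ n : ℕ, 1 ≤ n → |pSum n - log n| ≤ D := by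
  obtain ⟨C, hC⟩ := Vale.Agent.P013.lam_bounds
  obtain ⟨C2, hC2⟩ := Chebyshev.psi_sub_theta_le_mul_sqrt
  have hC20 : 0 ≤ C2 := by
    have := hC2 1
    rw [Real.sqrt_one, mul_one, Chebyshev.psi_one, Chebyshev.theta_one, sub_zero] at this
    exact this
  set b : ℕ → ℝ := fun d => if d.Prime then 0 else Λ d with hb
  set B : ℕ → ℝ := fun n => ∑ d ∈ Icc 1 n, b d with hB
  set S : ℝ := ∑' d : ℕ, 1 / (d : ℝ) ^ ((3 : ℝ) / 2) with hS
  have hsum : Summable fun d : ℕ => 1 / (d : ℝ) ^ ((3 : ℝ) / 2) :=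
    Real.summable_one_div_nat_rpow.2 (by norm_num)
  have hb0 : ∀ d, 0 ≤ b d := fun d => by
    simp only [hb]; split_ifs <;> simp [vonMangoldt_nonneg]
  have hBn : ∀ n : ℕ, B n ≤ C2 * √n := fun n => by
    refine le_trans (le_of_eq ?_) (hC2 n)
    rw [Chebyshev.psi_sub_theta_eq_sum_not_prime, Nat.floor_natCast, sum_filter]
    simp only [hB, hb]
    rw [show Icc 1 n = Ioc 0 n by ext d; simp only [mem_Ioc, mem_Icc]; omega]
    exact sum_congr rfl fun d _ => (ite_not _ _ _).symm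
  have hT : ∀ n : ℕ, 1 ≤ n → ∑ d ∈ Icc 1 n, b d / d
      ≤ B n / n + C2 * ∑ d ∈ range n, 1 / (d : ℝ) ^ ((3 : ℝ) / 2) := by
    intro n hn
    induction n, hn using Nat.le_induction with
    | base => simp [hB, hb]
    | succ n hn ih =>
      have hn0 : (0 : ℝ) < n := by exact_mod_cast hn
      have e1 : B (n + 1) = B n + b (n + 1) := by
        simp only [hB]; rw [sum_Icc_succ_top (by omega)]
      have key : B n / n - B n / (n + 1) ≤ C2 * (1 / (n : ℝ) ^ ((3 : ℝ) / 2)) := by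
        have hBnn : 0 ≤ B n := sum_nonneg fun d _ => hb0 d
        have e : B n / n - B n / (n + 1) = B n / (n * (n + 1)) := by field_simp; ring
        have e2 : (n : ℝ) ^ ((3 : ℝ) / 2) = n * √n := by
          rw [show (3 : ℝ) / 2 = 1 + 1 / 2 by norm_num, rpow_add hn0, rpow_one, ← sqrt_eq_rpow]
        have hs0 : 0 < √(n : ℝ) := sqrt_pos.2 hn0
        rw [e, e2, mul_one_div, div_le_div_iff₀ (by positivity) (by positivity)]
        calc B n * (n * √n) ≤ C2 * √n * (n * √n) :=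
              mul_le_mul_of_nonneg_right (hBn n) (by positivity)
          _ = C2 * (n * (√n * √n)) := by ring
          _ = C2 * (n * n) := by rw [mul_self_sqrt hn0.le]
          _ ≤ C2 * (n * (n + 1)) := by gcongr; linarith
      rw [sum_Icc_succ_top (by omega), sum_range_succ, e1, mul_add, add_div]
      push_cast
      linarith
  refine ⟨1 + |C| + C2 + C2 * S, fun n hn => ?_⟩
  have hsplit : Vale.Agent.P013.lam n = pSum n + ∑ d ∈ Icc 1 n, b d / d := by
    rw [Vale.Agent.P013.lam, pSum, ← sum_add_distrib]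
    refine sum_congr rfl fun d _ => ?_
    simp only [wt, hb]
    split_ifs with h
    · rw [vonMangoldt_apply_prime h]; ring
    · ring
  have h1 := hT n hn
  have h2 : ∑ d ∈ range n, 1 / (d : ℝ) ^ ((3 : ℝ) / 2) ≤ S :=
    hsum.sum_le_tsum _ fun i _ => by positivity
  have h3 : B n / n ≤ C2 := by
    have hn0 : (0 : ℝ) < n := by exact_mod_cast hn
    rw [div_le_iff₀ hn0]
    refine (hBn n).trans (mul_le_mul_of_nonneg_left ?_ hC20)
    rw [Real.sqrt_le_left hn0.le]
    have : (1 : ℝ) ≤ n := by exact_mod_cast hn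
    nlinarith
  have h4 : 0 ≤ ∑ d ∈ Icc 1 n, b d / d :=
    sum_nonneg fun d _ => div_nonneg (hb0 d) d.cast_nonneg
  have h5 := hC n hn
  have hS0 : 0 ≤ C2 * S := mul_nonneg hC20 (tsum_nonneg fun i => by positivity)
  have := mul_le_mul_of_nonneg_left h2 hC20
  rw [abs_le]
  constructor <;> linarith [le_abs_self C, abs_nonneg C]

theorem weighted_range {D : ℝ} (hD : ∀ n : ℕ, 1 ≤ n → |pSum n - log n| ≤ D) {a : ℕ} (ha : 3 ≤ a)
    {b : ℕ} (hab : a ≤ b) :
    |∑ n ∈ Ioc a b, wt n / log n - (log (log b) - log (log a))|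
      ≤ (2 * D + 1) / log a := by
  have ha0 : (3 : ℝ) ≤ a := by exact_mod_cast ha
  have hla : 0 < log (a : ℝ) := log_pos (by linarith)
  have hla1 : 1 ≤ log (a : ℝ) := by
    rw [← log_exp 1]; exact log_le_log (exp_pos 1) (by linarith [exp_one_lt_d9])
  have hD0 : 0 ≤ D := (abs_nonneg _).trans (hD 1 le_rfl)
  suffices h : |∑ n ∈ Ioc a b, wt n / log n - (log (log b) - log (log a))
      - ((pSum b - log b) / log b - (pSum a - log a) / log a)|
      ≤ D * (1 / log a - 1 / log b) + (1 / ((a : ℝ) - 1) - 1 / ((b : ℝ) - 1)) / log a by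
    have hlb : log (a : ℝ) ≤ log b := log_le_log (by linarith) (by exact_mod_cast hab)
    have e1 : |(pSum b - log b) / log b| ≤ D / log b := by
      rw [abs_div, abs_of_pos (hla.trans_le hlb)]
      exact div_le_div_of_nonneg_right (hD b (by omega)) (hla.trans_le hlb).le
    have e2 : |(pSum a - log a) / log a| ≤ D / log a := by
      rw [abs_div, abs_of_pos hla]
      exact div_le_div_of_nonneg_right (hD a (by omega)) hla.le
    have e3 : (1 / ((a : ℝ) - 1) - 1 / ((b : ℝ) - 1)) / log a ≤ 1 / log a := by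
      refine div_le_div_of_nonneg_right ?_ hla.le
      have : 1 / ((a : ℝ) - 1) ≤ 1 := by rw [div_le_one (by linarith)]; linarith
      have : 0 ≤ 1 / ((b : ℝ) - 1) := by
        have : (a : ℝ) ≤ b := by exact_mod_cast hab
        exact div_nonneg zero_le_one (by linarith)
      linarith
    have e4 : (2 * D + 1) / log a
        = D * (1 / log a - 1 / log b) + D / log b + D / log a + 1 / log a := by ring
    rw [e4]
    rw [abs_le] at h e1 e2 ⊢
    constructor <;> linarith
  induction b, hab using Nat.le_induction with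
  | base => simp
  | succ m hm ih =>
    have hm0 : (3 : ℝ) ≤ m := le_trans ha0 (by exact_mod_cast hm)
    set u := log (m : ℝ) with hu
    set v := log ((m + 1 : ℕ) : ℝ) with hv
    have hu0 : 0 < u := log_pos (by linarith)
    have hau : log (a : ℝ) ≤ u := log_le_log (by linarith) (by exact_mod_cast hm)
    have huv : u ≤ v := log_le_log (by linarith) (by push_cast; linarith)
    have hv0 : 0 < v := hu0.trans_le huv
    have hstep : pSum (m + 1) = pSum m + wt (m + 1) := by
      rw [pSum, pSum, sum_Icc_succ_top (by omega)]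
    have hd1 : v - u ≤ 1 / m := by
      rw [hu, hv, ← log_div (by positivity) (by positivity)]
      refine (log_le_sub_one_of_pos (by positivity)).trans (le_of_eq ?_)
      push_cast; field_simp; ring
    have hl1 : (v - u) / v ≤ log v - log u := by
      have := log_le_sub_one_of_pos (div_pos hu0 hv0)
      rw [log_div hu0.ne' hv0.ne'] at this
      rw [sub_div, div_self hv0.ne']
      linarith
    have hl2 : log v - log u ≤ (v - u) / u := by
      have := log_le_sub_one_of_pos (div_pos hv0 hu0)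
      rw [log_div hv0.ne' hu0.ne'] at this
      rw [sub_div, div_self hu0.ne']
      linarith
    have herr : log v - log u - (v - u) / v
        ≤ (1 / ((m : ℝ) - 1) - 1 / (((m + 1 : ℕ) : ℝ) - 1)) / log a := by
      have h1 : log v - log u - (v - u) / v ≤ (v - u) ^ 2 / (u * v) := by
        have : (v - u) / u - (v - u) / v = (v - u) ^ 2 / (u * v) := by field_simp
        linarith
      refine h1.trans ?_
      have h2 : (v - u) ^ 2 ≤ (1 / (m : ℝ)) ^ 2 := pow_le_pow_left₀ (sub_nonneg.2 huv) hd1 2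
      have h3 : log (a : ℝ) * 1 ≤ u * v :=
        mul_le_mul hau (hla1.trans (hau.trans huv)) zero_le_one hu0.le
      have h4 : (1 / (m : ℝ)) ^ 2 / (log (a : ℝ) * 1)
          ≤ (1 / ((m : ℝ) - 1) - 1 / (((m + 1 : ℕ) : ℝ) - 1)) / log a := by
        rw [mul_one]
        refine div_le_div_of_nonneg_right ?_ hla.le
        push_cast
        rw [add_sub_cancel_right, div_sub_div _ _ (by linarith : (m : ℝ) - 1 ≠ 0) (by positivity),
          div_pow, one_pow, div_le_div_iff₀ (by positivity) (by nlinarith)]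
        nlinarith
      exact (div_le_div₀ (by positivity) h2 (by positivity) h3).trans h4
    have hmid : |(pSum m - u) * (1 / u - 1 / v)| ≤ D * (1 / u - 1 / v) := by
      have h0 : 0 ≤ 1 / u - 1 / v := sub_nonneg.2 (one_div_le_one_div_of_le hu0 huv)
      rw [abs_mul, abs_of_nonneg h0]
      exact mul_le_mul_of_nonneg_right (hD m (by omega)) h0
    rw [sum_Ioc_succ_top hm, hstep]
    have key : ∑ k ∈ Ioc a m, wt k / log k + wt (m + 1) / v - (log v - log (log a))
        - ((pSum m + wt (m + 1) - v) / v - (pSum a - log a) / log a)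
        = (∑ k ∈ Ioc a m, wt k / log k - (log u - log (log a))
          - ((pSum m - u) / u - (pSum a - log a) / log a))
          + (pSum m - u) * (1 / u - 1 / v) - (log v - log u - (v - u) / v) := by
      field_simp
      ring
    rw [← hv, key]
    have e : D * (1 / log a - 1 / v)
          + (1 / ((a : ℝ) - 1) - 1 / (((m + 1 : ℕ) : ℝ) - 1)) / log a
        = (D * (1 / log a - 1 / u) + (1 / ((a : ℝ) - 1) - 1 / ((m : ℝ) - 1)) / log a)
          + D * (1 / u - 1 / v)
          + (1 / ((m : ℝ) - 1) - 1 / (((m + 1 : ℕ) : ℝ) - 1)) / log a := by ring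
    rw [e]
    rw [abs_le] at ih hmid ⊢
    constructor <;> linarith

theorem loglog_pred (k : ℕ) (hk : 1 ≤ k) :
    2 * exp (k : ℝ) ≥ 2 ∧ 4 ≤ ⌈exp (exp (k : ℝ))⌉₊ ∧
      exp (k : ℝ) / 2 ≤ log ((⌈exp (exp (k : ℝ))⌉₊ - 1 : ℕ) : ℝ) ∧
      |log (log ((⌈exp (exp (k : ℝ))⌉₊ - 1 : ℕ) : ℝ)) - k| ≤ 2 * exp (-(k : ℝ)) := by
  set A := exp (exp (k : ℝ)) with hA
  have hk1 : (1 : ℝ) ≤ k := by exact_mod_cast hk
  have he : (2.7 : ℝ) ≤ exp (k : ℝ) := by
    linarith [exp_one_gt_d9, exp_le_exp.2 hk1]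
  have hA4 : (4 : ℝ) < A := by
    nlinarith [add_one_le_exp (exp (k : ℝ) / 2), exp_pos (exp (k : ℝ) / 2),
      show A = exp (exp (k : ℝ) / 2) * exp (exp (k : ℝ) / 2) by rw [hA, ← exp_add]; ring_nf]
  have hc4 : 4 ≤ ⌈A⌉₊ := by
    have : (4 : ℝ) < (⌈A⌉₊ : ℝ) := hA4.trans_le (Nat.le_ceil A)
    exact_mod_cast this.le
  set n : ℕ := ⌈A⌉₊ - 1 with hn
  have hn1 : (n : ℝ) < A := Nat.lt_ceil.1 (by omega)
  have hn2 : A - 1 ≤ (n : ℝ) := by
    rw [hn, Nat.cast_sub (by omega)]; push_cast; linarith [Nat.le_ceil A]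
  have hl2 := log_two_lt_d9
  have hlo : exp (k : ℝ) - log 2 ≤ log (n : ℝ) := by
    calc exp (k : ℝ) - log 2 = log (A / 2) := by
          rw [log_div (exp_pos _).ne' two_ne_zero, log_exp]
      _ ≤ log (n : ℝ) := log_le_log (by positivity) (by linarith)
  have hhi : log (n : ℝ) ≤ exp (k : ℝ) := by
    rw [← log_exp (exp (k : ℝ))]; exact log_le_log (by linarith) hn1.le
  refine ⟨by linarith, hc4, by linarith, ?_⟩
  have hpos : 0 < log (n : ℝ) := by linarith
  have hup : log (log (n : ℝ)) ≤ k := by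
    rw [← log_exp (k : ℝ)]; exact log_le_log hpos hhi
  have hdown : (k : ℝ) - log (log (n : ℝ)) ≤ 2 * exp (-(k : ℝ)) := by
    have h := log_le_sub_one_of_pos (div_pos (exp_pos (k : ℝ)) hpos)
    rw [log_div (exp_pos _).ne' hpos.ne', log_exp] at h
    refine h.trans ?_
    rw [exp_neg, div_sub_one hpos.ne', div_le_iff₀ hpos, mul_assoc, inv_mul_eq_div,
      mul_div_assoc', le_div_iff₀ (exp_pos _)]
    nlinarith
  rw [abs_le]
  constructor <;> linarith [exp_pos (-(k : ℝ))]

theorem cell_eq (k : ℕ) (hk : 1 ≤ k) :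
    cell k = (Ioc (⌈exp (exp (k : ℝ))⌉₊ - 1) (⌈exp (exp ((k + 1 : ℕ) : ℝ))⌉₊ - 1)).filter
      Nat.Prime := by
  ext p
  obtain ⟨-, h4, -, -⟩ := loglog_pred k hk
  have key : 2 ≤ p → (kap p = k ↔ exp (exp (k : ℝ)) ≤ p ∧ (p : ℝ) < exp (exp ((k : ℝ) + 1))) := by
    intro hp
    have hp' : (1 : ℝ) < p := by exact_mod_cast hp
    have hl : 0 < log (p : ℝ) := log_pos hp'
    unfold kap
    rw [Nat.floor_eq_iff' (by omega), le_log_iff_exp_le hl, log_lt_iff_lt_exp hl,
      le_log_iff_exp_le (by linarith), log_lt_iff_lt_exp (by linarith)]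
  simp only [cell, mem_filter, mem_range, mem_Ioc]
  push_cast
  constructor
  · rintro ⟨-, hp, hk'⟩
    obtain ⟨h1, h2⟩ := (key hp.two_le).1 hk'
    have a1 : ⌈exp (exp (k : ℝ))⌉₊ ≤ p := Nat.ceil_le.2 h1
    have a2 : p < ⌈exp (exp ((k : ℝ) + 1))⌉₊ := Nat.lt_ceil.2 h2
    exact ⟨⟨by omega, by omega⟩, hp⟩
  · rintro ⟨⟨h1, h2⟩, hp⟩
    have a1 : exp (exp (k : ℝ)) ≤ p := Nat.ceil_le.1 (by omega)
    have a2 : (p : ℝ) < exp (exp ((k : ℝ) + 1)) := Nat.lt_ceil.1 (by omega)
    exact ⟨Nat.lt_succ_of_le (Nat.le_floor a2.le), hp, (key hp.two_le).2 ⟨a1, a2⟩⟩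

theorem mertens : MertensStmt := by
  obtain ⟨D, hD⟩ := pSum_bounds
  have hD0 : 0 ≤ D := (abs_nonneg _).trans (hD 1 le_rfl)
  refine ⟨max (|(∑ p ∈ cell 0, (1 : ℝ) / p) - 1|) (2 * (2 * D + 1) + 4), fun k => ?_⟩
  rcases Nat.eq_zero_or_pos k with rfl | hk
  · simp
  obtain ⟨-, a4, ala, all⟩ := loglog_pred k hk
  obtain ⟨-, -, blb, bll⟩ := loglog_pred (k + 1) (by omega)
  set a := ⌈exp (exp (k : ℝ))⌉₊ - 1 with ha
  set b := ⌈exp (exp ((k + 1 : ℕ) : ℝ))⌉₊ - 1 with hb
  have hab : a ≤ b := by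
    refine Nat.sub_le_sub_right (Nat.ceil_le_ceil ?_) 1
    gcongr; omega
  have hsum : ∑ p ∈ cell k, (1 : ℝ) / p = ∑ n ∈ Ioc a b, wt n / log n := by
    rw [cell_eq k hk, sum_filter]
    refine sum_congr rfl fun n hn => ?_
    have hn' : (1 : ℝ) < n := by
      have := (mem_Ioc.1 hn).1
      exact_mod_cast (by omega : 1 < n)
    have := log_pos hn'
    simp only [wt]
    split_ifs
    · field_simp
    · simp
  have h := weighted_range hD (a := a) (by omega) hab
  rw [← hsum] at h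
  have hla : (2 * D + 1) / log (a : ℝ) ≤ 2 * (2 * D + 1) * exp (-(k : ℝ)) := by
    rw [exp_neg, ← div_eq_mul_inv, div_le_div_iff₀ (by linarith [exp_pos (k : ℝ)]) (exp_pos _)]
    nlinarith
  have hexp : exp (-((k + 1 : ℕ) : ℝ)) ≤ exp (-(k : ℝ)) := by
    gcongr; omega
  push_cast at bll
  have hm : (2 * (2 * D + 1) + 4) * exp (-(k : ℝ))
      ≤ max (|(∑ p ∈ cell 0, (1 : ℝ) / p) - 1|) (2 * (2 * D + 1) + 4) * exp (-(k : ℝ)) :=
    mul_le_mul_of_nonneg_right (le_max_right _ _) (exp_pos _).le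
  rw [abs_le] at h all bll ⊢
  push_cast at hexp h
  constructor <;> linarith

end Vale.Agent.P031.Mertens
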